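import Vale.Agent.P263C64.All

/-!
# P263: Curtis's conjecture, with the Kervaire invariant of a stable class

* For every `d > 0` the image of the mod 2 Hurewicz map `h_d : π_d(Q₀S⁰) → H_d(Q₀S⁰; 𝔽₂)` is the
  span `V_d` of the classes `h_d(g)`, where `g` is one of `±η`, `±ν`, `±σ` or has Kervaire
  invariant one (`KervaireOne`: the Arf invariant `∑ φ(aᵢ) φ(bᵢ)` of a framed manifold of `g` is
  one).
* If `h_d(g) ≠ 0`, then `d = 1`, `3` or `7`, or `g` has Kervaire invariant one.
* `η`, `ν`, `σ` exist, and every `g` has a framed manifold (Pontryagin and Thom).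
* For `d = 2q > 0` the Kervaire invariant of `g` exists and depends only on the class of `g` in
  `π_d(Q₀S⁰)`: all framed manifolds of all maps homotopic to `g` have the same Arf invariant.
* The cup product is well defined.
* On every framed manifold `N` of dimension `2q > 0` the fundamental class exists and is unique,
  `φ` is a quadratic refinement of the pairing `⟨x ∪ y, [N]⟩`, the pairing is nonsingular,
  symplectic bases exist, and all of them give the same Arf invariant.
-/

namespace Vale.Agent.Results.P263.AAArfInvariant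

open Vale.Agent.P263.ST Vale.Agent.P263.FR Vale.Agent.P263A Vale.Agent.P263C CategoryTheory

theorem result :
    (∀ d : ℕ, 0 < d → Set.range (hur (d := d)) = VK d) ∧
    (∀ (d : ℕ) (g : BMap d), 0 < d → hur g ≠ 0 → (d = 1 ∨ d = 3 ∨ d = 7) ∨ KervaireOne g) ∧
    (∀ d : ℕ, d = 1 ∨ d = 3 ∨ d = 7 → ∃ g : BMap d, IsHopf g) ∧
    (∀ (d : ℕ) (g : BMap d), 0 < d →
      ∃ (n : ℕ) (F : Sph (d + n) ⟶ Sph n) (c : Sph (d + n) ⟶ Th n (Mfd F)), Framed g F c) ∧
    (∀ (d q : ℕ) (h : q + q = d) (g : BMap d), 0 < q → ∃ a : ZMod 2, KervInv h g a ∧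
      ∀ (g' : BMap d) (a' : ZMod 2), Htpc (pt d) g.hom g'.hom → KervInv h g' a' → a' = a) ∧
    (∀ (X : TopCat.{0}) (p q n : ℕ) (h : p + q = n) (x : Coh p X) (y : Coh q X),
      ∃! w : Coh n X, IsCup h x y w) ∧
    ∀ (d q n : ℕ) (h : q + q = d) (F : Sph (d + n) ⟶ Sph n), 0 < q → F (pt (d + n)) = pt n →
      Regular F → (∃! z : (H d).obj (Mfd F), IsFund z) ∧
        ∀ (c : Sph (d + n) ⟶ Th n (Mfd F)) (z : (H d).obj (Mfd F)), IsCollapse F c → IsFund z →
          IsArfForm (fun x y : Coh q (Mfd F) => cup h x y z) (phi c) :=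
  top Vale.Agent.P263B64.conv Vale.Agent.P263C64.inv

end Vale.Agent.Results.P263.AAArfInvariant
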